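import Vale.Agent.P269.G1I.All
import Vale.Agent.P269.G2I.BSpec1
import Vale.Agent.P269.G2I.H984.SBEuler
import Vale.Agent.P269.G2I.Model1
import Vale.Agent.P269.G2I.Model2
import Vale.Agent.P269.G2I.T.H521_SrB

/-!
# [G2, Z1] the Euler equation for two-point functions, even dimension
-/

set_option autoImplicit false

namespace Vale.Agent.P269.G2.H36

open Vale.Agent.P269.CI Vale.Agent.P269.G1 Vale.Agent.P269.G2
open Vale.Agent.P269.G2.H984.SBE (toSer_entries move_set sr_congr sr_add sr_zero sr_smul sr_sum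
  sr_const move_even par_false lowerSum_cons)

section

variable {X : CompleteIntersection} {F : ℕ → ℕ → List (Ins X) → ℂ}

/-- the sum of `1 - p` -/
noncomputable def wtc (X : CompleteIntersection) (M : List (Ins X)) : ℂ :=
  (M.map fun x => (1 : ℂ) - (hp X x.1 : ℂ)).sum

/-- the weight of a list from the grading equation -/
theorem wt_two (hF : IsGW X F) (d : ℕ) (a b : Ix X) (m n : ℕ) (M : List (Ins X))
    (hM : ∀ x ∈ M, x.2 = 0) :
    wtc X M * F 0 d ((a, m) :: (b, n) :: M) =
      (((m + n + 1 : ℕ) : ℂ) + mu X a + mu X b - (index X : ℂ) * d) *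
        F 0 d ((a, m) :: (b, n) :: M) := by
  by_cases h0 : F 0 d ((a, m) :: (b, n) :: M) = 0
  · rw [h0, mul_zero, mul_zero]
  · congr 1
    have h1 := hF.grading_p 0 d _ h0
    have h3 : ∀ M : List (Ins X), (∀ x ∈ M, x.2 = 0) →
        wtc X M = -(((M.map fun x => (x.2 : ℤ) + hp X x.1 - 1).sum : ℤ) : ℂ) := by
      intro M
      induction M with
      | nil => intro _; simp [wtc]
      | cons y M ih =>
        intro hM
        have h3 := ih fun x hx => hM x (List.mem_cons_of_mem _ hx)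
        have h4 : y.2 = 0 := hM y List.mem_cons_self
        unfold wtc at h3 ⊢
        rw [List.map_cons, List.sum_cons, h3, List.map_cons, List.sum_cons, h4]
        push_cast
        ring
    rw [List.map_cons, List.map_cons, List.sum_cons, List.sum_cons] at h1
    rw [h3 M hM]
    have h5 : ((M.map fun x => (x.2 : ℤ) + hp X x.1 - 1).sum : ℤ) =
        (1 - ((0 : ℕ) : ℤ)) * (X.dim - 3) + index X * d - ((m : ℤ) + hp X a - 1) -
          ((n : ℤ) + hp X b - 1) := by
      linarith
    rw [h5]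
    unfold mu
    push_cast
    ring

theorem lowerSum_zero (T : Ix X → Ix X → ℂ) (L : List (Ins X)) (hL : ∀ x ∈ L, x.2 = 0) :
    ∀ G : List (Ins X) → ℂ, lowerSum X T G L = 0 := by
  intro G
  unfold lowerSum
  refine Finset.sum_eq_zero fun i _ => ?_
  rw [if_pos]
  exact hL _ (List.get_mem _ _)

theorem lowerSum_two (T : Ix X → Ix X → ℂ) (G : List (Ins X) → ℂ) (a b : Ix X) (m n : ℕ)
    (L : List (Ins X)) (hL : ∀ x ∈ L, x.2 = 0) :
    lowerSum X T G ((a, m) :: (b, n) :: L) =
      (if m = 0 then 0 else ∑ c, T a c * G ((c, m - 1) :: (b, n) :: L)) +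
      (if n = 0 then 0 else ∑ c, T b c * G ((a, m) :: (c, n - 1) :: L)) := by
  rw [lowerSum_cons, lowerSum_cons, lowerSum_zero T L hL, add_zero]

theorem pairTerm_two (T : Ix X → Ix X → ℂ) (a b : Ix X) (m n : ℕ) (L : List (Ins X)) :
    pairTerm X T ((a, m) :: (b, n) :: L) = if (m = 0 ∧ n = 0) ∧ L = [] then T a b else 0 := by
  rcases m with _ | m <;> rcases n with _ | n <;> rcases L with _ | ⟨x, L⟩ <;> simp [pairTerm]

/-- the sum over the variables -/
theorem sum_wtc {n : ℕ} (E : Fam X n) (hF : IsGW X F) (he : Even X.dim) (y z : Ins X) :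
    ∑ i, (MvPowerSeries.X i : RB n) *
      (((1 : ℂ) - (hp X (E.e i).1 : ℂ)) • sr E (cor F 0 [E.e i, y, z])) =
      sr E (fun d M => wtc X M * F 0 d (y :: z :: M)) := by
  have h0 : ∀ i, ((1 : ℂ) - (hp X (E.e i).1 : ℂ)) • sr E (cor F 0 [E.e i, y, z]) =
      toSer (fun L : List (Fin n) => (PowerSeries.mk fun d =>
        ((1 : ℂ) - (hp X (E.e i).1 : ℂ)) * cor F 0 [E.e i, y, z] d (L.map E.e) :
          PowerSeries ℂ)) := by
    intro i
    rw [← sr_smul]
    rfl
  have hsym : ∀ i, Sym (fun L : List (Fin n) => (PowerSeries.mk fun d =>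
      ((1 : ℂ) - (hp X (E.e i).1 : ℂ)) * cor F 0 [E.e i, y, z] d (L.map E.e) :
        PowerSeries ℂ)) := by
    intro i L M h
    ext d
    rw [PowerSeries.coeff_mk, PowerSeries.coeff_mk, symF_cor E hF he 0 _ d L M h]
  simp only [h0]
  refine Eq.trans (toSer_entries (n := n) (K := PowerSeries ℂ)
    (fun i L => PowerSeries.mk fun d =>
      ((1 : ℂ) - (hp X (E.e i).1 : ℂ)) * cor F 0 [E.e i, y, z] d (L.map E.e)) hsym).symm ?_
  rw [sr]
  congr 1
  funext L
  ext d
  rw [PowerSeries.coeff_mk, map_sum]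
  simp only [PowerSeries.coeff_mk]
  have h3 : wtc X (L.map E.e) = ∑ j : Fin L.length,
      ((1 : ℂ) - (hp X (E.e (L.get j)).1 : ℂ)) := by
    unfold wtc
    rw [List.map_map]
    exact (Fin.sum_univ_fun_getElem L _).symm
  rw [h3, Finset.sum_mul]
  refine Finset.sum_congr rfl fun j _ => ?_
  have h5 : F 0 d (y :: z :: L.map E.e) =
      F 0 d (E.e (L.get j) :: y :: z :: (L.eraseIdx j).map E.e) := by
    rw [← move_set E hF he d y z _ L j j.2]
    congr 3
    have : E.e (L.get j) = (L.map E.e)[(j : ℕ)]'(by simp) := by simp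
    rw [this, List.set_getElem_self]
  rw [h5]
  rfl

/-- the lists of the small phase space have no descendants -/
theorem nodesc (L : List (Fin (nx X))) : ∀ x ∈ L.map (E0 X).e, x.2 = 0 := by
  intro x hx
  obtain ⟨i, _, rfl⟩ := List.mem_map.1 hx
  rfl

end

variable {X : CompleteIntersection} {F : ℕ → ℕ → List (Ins X) → ℂ}
variable (hF : IsGW X F) (he : Even X.dim)

/-- the derivative along the Euler field -/
theorem sum_EM (y z : Ins X) :
    ∑ i, EM hF he i * sr (E0 X) (cor F 0 [(i, 0), y, z]) =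
      sr (E0 X) (fun d M => wtc X M * F 0 d (y :: z :: M)) +
        (index X : ℂ) • sr (E0 X) (cor F 0 [(hcls X, 0), y, z]) := by
  rw [← sum_wtc (E0 X) hF he y z]
  have h1 : ∀ k : Ix X, EM hF he k * sr (E0 X) (cor F 0 [(k, 0), y, z]) =
      (1 - ((hp X k : ℕ) : RM X)) * MvPowerSeries.X ((E0 X).i0 k) *
        sr (E0 X) (cor F 0 [(k, 0), y, z]) +
      (if k = hcls X then ((index X : ℤ) : RM X) * sr (E0 X) (cor F 0 [(k, 0), y, z])
        else 0) := by
    intro k
    unfold EM
    rw [add_mul]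
    split_ifs
    · rfl
    · rw [zero_mul]
  simp only [h1, Finset.sum_add_distrib]
  congr 1
  · refine Fintype.sum_equiv (Fintype.equivFin (Ix X)) _ _ fun k => ?_
    have h2 : (E0 X).e (Fintype.equivFin (Ix X) k) = (k, 0) := (E0 X).e_i0 k
    have h3 : (1 - ((hp X k : ℕ) : RM X)) = cb (nx X) ((1 : ℂ) - (hp X k : ℂ)) := by
      unfold cb
      rw [map_sub, map_sub, map_one, map_one, map_natCast, map_natCast]
    rw [h2, h3, H984.SBE.smul_RB]
    change _ * MvPowerSeries.X (Fintype.equivFin (Ix X) k) * _ = _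
    ring
  · rw [Finset.sum_ite_eq' Finset.univ (hcls X)]
    rw [if_pos (Finset.mem_univ _), H984.SBE.smul_RB]
    congr 1
    unfold cb
    rw [map_intCast, map_intCast]

/-- **[Z1]** Euler equation for two-point functions with descendants -/
theorem W_euler (a b : Ix X) (m n : ℕ) :
    ∑ i, EM hF he i * sr (E0 X) (cor F 0 [(i, 0), (a, m), (b, n)]) =
      (((m + n + 1 : ℕ) : ℂ) + mu X a + mu X b) • VB (E0 X) F (a, m) (b, n) +
      (if m = 0 then 0 else ∑ c, c1 X a c • VB (E0 X) F (c, m - 1) (b, n)) +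
      (if n = 0 then 0 else ∑ c, c1 X b c • VB (E0 X) F (a, m) (c, n - 1)) +
      (if m = 0 ∧ n = 0 then cb (nx X) (∑ c, c1 X a c * pairing X c b) else 0) := by
  rw [sum_EM hF he]
  have e2 : (if m = 0 then (0 : RM X) else ∑ c, c1 X a c • VB (E0 X) F (c, m - 1) (b, n)) =
      sr (E0 X) (fun d L => if m = 0 then 0 else
        ∑ c, c1 X a c * cor F 0 [(c, m - 1), (b, n)] d L) := by
    split_ifs
    · exact (sr_zero (E0 X)).symm
    · rw [sr_sum]
      exact Finset.sum_congr rfl fun c _ => (sr_smul (E0 X) _ _).symm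
  have e3 : (if n = 0 then (0 : RM X) else ∑ c, c1 X b c • VB (E0 X) F (a, m) (c, n - 1)) =
      sr (E0 X) (fun d L => if n = 0 then 0 else
        ∑ c, c1 X b c * cor F 0 [(a, m), (c, n - 1)] d L) := by
    split_ifs
    · exact (sr_zero (E0 X)).symm
    · rw [sr_sum]
      exact Finset.sum_congr rfl fun c _ => (sr_smul (E0 X) _ _).symm
  have e4 : (if m = 0 ∧ n = 0 then cb (nx X) (∑ c, c1 X a c * pairing X c b) else 0) =
      sr (E0 X) (fun d L => if m = 0 ∧ n = 0 then
        (if d = 0 ∧ L = [] then ∑ c, c1 X a c * pairing X c b else 0) else 0) := by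
    split_ifs
    · exact (sr_const (E0 X) _).symm
    · exact (sr_zero (E0 X)).symm
  rw [e2, e3, e4]
  unfold VB
  rw [← sr_smul, ← sr_smul, ← sr_add, ← sr_add, ← sr_add, ← sr_add]
  refine sr_congr (E0 X) fun d L => ?_
  have hM := nodesc (X := X) L
  generalize L.map (E0 X).e = M at hM
  have h3 := hF.divisor 0 d ((a, m) :: (b, n) :: M)
  have h4 := wt_two hF d a b m n M hM
  rw [lowerSum_two _ _ _ _ _ _ _ hM, pairTerm_two] at h3
  unfold cor
  simp only [List.cons_append, List.nil_append]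
  rw [h3, h4]
  have h5 : ∀ (x : Ix X) (f : Ix X → ℂ), (index X : ℂ) * ∑ c, hmul X x c * f c =
      ∑ c, c1 X x c * f c := by
    intro x f
    rw [Finset.mul_sum]
    exact Finset.sum_congr rfl fun c _ => by rw [c1]; ring
  have h7 : (if m = 0 then (0 : ℂ) else ∑ c, c1 X a c *
      F 0 d ((c, m - 1) :: (b, n) :: M)) = (index X : ℂ) * (if m = 0 then (0 : ℂ) else
        ∑ c, hmul X a c * F 0 d ((c, m - 1) :: (b, n) :: M)) := by
    split_ifs
    · rw [mul_zero]
    · rw [h5]
  have h8 : (if n = 0 then (0 : ℂ) else ∑ c, c1 X b c *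
      F 0 d ((a, m) :: (c, n - 1) :: M)) = (index X : ℂ) * (if n = 0 then (0 : ℂ) else
        ∑ c, hmul X b c * F 0 d ((a, m) :: (c, n - 1) :: M)) := by
    split_ifs
    · rw [mul_zero]
    · rw [h5]
  have h9 : (if m = 0 ∧ n = 0 then
        (if d = 0 ∧ M = [] then ∑ c, c1 X a c * pairing X c b else 0) else 0) =
      (index X : ℂ) * (if 0 = 0 ∧ d = 0 then
        (if (m = 0 ∧ n = 0) ∧ M = [] then ∑ c, hmul X a c * pairing X c b else 0)
          else 0) := by
    by_cases hm : m = 0 ∧ n = 0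
    · by_cases hd : d = 0
      · by_cases hL : M = []
        · rw [if_pos hm, if_pos ⟨hd, hL⟩, if_pos ⟨rfl, hd⟩, if_pos ⟨hm, hL⟩, h5]
        · rw [if_pos hm, if_neg fun h => hL h.2, if_pos ⟨rfl, hd⟩, if_neg fun h => hL h.2, mul_zero]
      · rw [if_pos hm, if_neg fun h => hd h.1, if_neg fun h => hd h.2, mul_zero]
    · rw [if_neg hm, if_neg fun h : (m = 0 ∧ n = 0) ∧ M = [] => hm h.1]
      split_ifs <;> rw [mul_zero]
  rw [h7, h8, h9]
  simp only [if_neg (show ¬ ((0 : ℕ) = 1 ∧ d = 0) by omega)]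
  ring

end Vale.Agent.P269.G2.H36
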